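import Vale.Agent.P022D.Good.Cliff

/-!
P022D, block Good: one element whose discriminant avoids finitely many primes, uniformly for all
Frobenius elements close to its odd powers.
-/

set_option linter.all false

noncomputable section

namespace Vale.Agent.P022D.Good

open Vale.Agent.P022 Vale.Agent.P022.C Vale.Agent.P022D.Sel
open Vale.Agent.P027M.S (mx)

variable {F : Type} [Field F] {ρ : GQ →* GL (Fin 2) F} {H : Subgroup GQ}
  {B : Type*} [CommRing B]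

/-- the elements congruent to `1` modulo `J` -/
def Kc (r : GQ →* GL (Fin 2) B) (J : Ideal B) : Subgroup GQ :=
  ((RingHom.mapMatrix (Ideal.Quotient.mk J)).toMonoidHom.comp (rm r)).ker

theorem Kc_normal (r : GQ →* GL (Fin 2) B) (J : Ideal B) : (Kc r J).Normal :=
  MonoidHom.normal_ker _

theorem mem_Kc (r : GQ →* GL (Fin 2) B) (J : Ideal B) (g : GQ) :
    g ∈ Kc r J ↔ ∀ i j, (r g : M2 B) i j - (1 : M2 B) i j ∈ J := by
  rw [Kc, MonoidHom.mem_ker, ← Matrix.ext_iff]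
  refine forall₂_congr fun i j => ?_
  rw [← Ideal.Quotient.eq]
  refine Eq.congr rfl ?_
  rw [← map_one (RingHom.mapMatrix (Ideal.Quotient.mk J))]
  rfl

/-- continuity for the `m`-adic topology -/
def Cont (r : GQ →* GL (Fin 2) B) (m : Ideal B) : Prop :=
  ∀ c : ℕ, ∃ U : Subgroup GQ, IsOpen (U : Set GQ) ∧
    ∀ u ∈ U, ∀ i j, (r u : M2 B) i j - (1 : M2 B) i j ∈ m ^ c

theorem Cont.isOpen {r : GQ →* GL (Fin 2) B} {m : Ideal B} (h : Cont r m) (c : ℕ) :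
    IsOpen (Kc r (m ^ c) : Set GQ) := by
  obtain ⟨U, hU, h⟩ := h c
  exact Subgroup.isOpen_mono (fun u hu => (mem_Kc r _ u).2 (h u hu)) hU

theorem map_mul_Kc (r : GQ →* GL (Fin 2) B) (J : Ideal B) (g : GQ) {u : GQ} (hu : u ∈ Kc r J) :
    (r (g * u) : M2 B).map (Ideal.Quotient.mk J) = (r g : M2 B).map (Ideal.Quotient.mk J) := by
  have h1 : (r u : M2 B).map (Ideal.Quotient.mk J) = 1 := hu
  rw [map_mul, Units.val_mul, Matrix.map_mul, h1, mul_one]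

theorem disc_sub (r : GQ →* GL (Fin 2) B) (J : Ideal B) (g : GQ) {u : GQ} (hu : u ∈ Kc r J) :
    disc (r (g * u) : M2 B) - disc (r g : M2 B) ∈ J := by
  rw [← Ideal.Quotient.eq, ← map_disc, ← map_disc, map_mul_Kc r J g hu]

theorem exists_c (m : Ideal B) (s : Finset (Ideal B))
    (hcl : ∀ p ∈ s, ∀ x, (∀ c : ℕ, x ∈ p ⊔ m ^ c) → x ∈ p) (x : B) (hx : ∀ p ∈ s, x ∉ p) :
    ∃ c : ℕ, 0 < c ∧ ∀ p ∈ s, x ∉ p ⊔ m ^ c := by
  have : ∀ p : Ideal B, ∃ c : ℕ, p ∈ s → x ∉ p ⊔ m ^ c := fun p => by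
    by_contra hcon
    push Not at hcon
    exact hx p (hcon 0).1 (hcl p (hcon 0).1 x fun c => (hcon c).2)
  choose c hc using this
  refine ⟨s.sup c + 1, Nat.succ_pos _, fun p hp e => hc p hp ?_⟩
  exact sup_le_sup_left (Ideal.pow_le_pow_right ((Finset.le_sup (f := c) hp).trans
    (Nat.le_succ _))) p e

theorem sc_mul {σ u : GQ} (hu : ρ u = 1) : Sc ρ (σ * u) ↔ Sc ρ σ := by
  simp only [Sc, mx, map_mul, hu, mul_one]

theorem avoid [CharP F 2] (red : B →+* F) (r : GQ →* GL (Fin 2) B) (hD : Dh ρ H)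
    (hr : ∀ g, mx ρ g = (r g : M2 B).map red) (m : Ideal B) (hc : Cont r m)
    (s : Finset (Ideal B)) (hp : ∀ p ∈ s, p.IsPrime ∧ (∀ x ∈ p, red x = 0) ∧
      ((2 : B) ∈ p → ∃ g ∉ H, (r g : M2 B).trace ∉ p))
    (hcl : ∀ p ∈ s, ∀ x, (∀ c : ℕ, x ∈ p ⊔ m ^ c) → x ∈ p)
    {U : Subgroup GQ} (hU : IsOpen (U : Set GQ)) (hn : U.Normal) (h1 : ∀ g ∈ U, ρ g = 1)
    {σ : GQ} (hI : σ ∈ Ginf) (hs : ¬ Sc ρ σ) :
    ∃ u ∈ U, u ∈ Ginf ∧ ∀ p ∈ s, disc (r (σ * u) : M2 B) ∉ p := by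
  classical
  induction s using Finset.induction_on with
  | empty => exact ⟨1, U.one_mem, Ginf.one_mem, by simp⟩
  | insert p s hps ih =>
    have hcl' : ∀ p ∈ s, ∀ x, (∀ c : ℕ, x ∈ p ⊔ m ^ c) → x ∈ p :=
      fun p' h => hcl p' (Finset.mem_insert_of_mem h)
    obtain ⟨u, hu, hu', h⟩ := ih (fun p' h => hp p' (Finset.mem_insert_of_mem h)) hcl'
    obtain ⟨c, -, hc'⟩ := exists_c m s hcl' _ h
    obtain ⟨p1, p2, p3⟩ := hp p (Finset.mem_insert_self _ _)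
    have := Kc_normal r (m ^ c)
    obtain ⟨v, hv, hv', h'⟩ := one_prime red r hD hr p p2 p3 (U := U ⊓ Kc r (m ^ c))
      (hU.inter (hc.isOpen c)) inferInstance (Ginf.mul_mem hI hu')
      (by rwa [sc_mul (h1 u hu)])
    refine ⟨u * v, U.mul_mem hu hv.1, Ginf.mul_mem hu' hv', fun p' hp' => ?_⟩
    rw [← mul_assoc]
    rcases Finset.mem_insert.1 hp' with rfl | hp'
    · exact h'
    · refine fun e => hc' p' hp' ?_
      have := Ideal.sub_mem _ (Ideal.mem_sup_left e)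
        (Ideal.mem_sup_right (S := p') (disc_sub r (m ^ c) (σ * u) hv.2))
      rwa [sub_sub_cancel] at this

/-- the element which kills the new part at `q` -/
def Dq (r : GQ →* GL (Fin 2) B) (q : ℕ) (φ : GQ) : B :=
  (q : B) * (r φ : M2 B).trace ^ 2 - ((q : B) + 1) ^ 2 * (r φ : M2 B).det

theorem Dq_sub (r : GQ →* GL (Fin 2) B) (J : Ideal B) {q : ℕ} (hq : (q : B) - 1 ∈ J) (φ : GQ) :
    Dq r q φ - disc (r φ : M2 B) ∈ J := by
  have : Dq r q φ - disc (r φ : M2 B) =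
      ((r φ : M2 B).trace ^ 2 - ((q : B) + 3) * (r φ : M2 B).det) * ((q : B) - 1) := by
    rw [Dq, disc]; ring
  rw [this]
  exact J.mul_mem_left _ hq

/-- **Output of the block.** After moving `σ` inside its coset, the elements `D_q` of all
auxiliary primes attached to a small `V` stay outside `p + m ^ c` for all `p` in `s`. -/
theorem good [CharP F 2] (red : B →+* F) (r : GQ →* GL (Fin 2) B) (hD : Dh ρ H)
    (hr : ∀ g, mx ρ g = (r g : M2 B).map red) (hun : ∀ x : B, red x ≠ 0 → IsUnit x)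
    (m : Ideal B) (hm : ∀ x ∈ m, red x = 0) (hc : Cont r m)
    (s : Finset (Ideal B)) (hp : ∀ p ∈ s, p.IsPrime ∧ (∀ x ∈ p, red x = 0) ∧
      ((2 : B) ∈ p → ∃ g ∉ H, (r g : M2 B).trace ∉ p))
    (hcl : ∀ p ∈ s, ∀ x, (∀ c : ℕ, x ∈ p ⊔ m ^ c) → x ∈ p)
    {U : Subgroup GQ} (hU : IsOpen (U : Set GQ)) (hn : U.Normal) (h1 : ∀ g ∈ U, ρ g = 1)
    {σ : GQ} (hI : σ ∈ Ginf) (hs : ¬ Sc ρ σ) :
    ∃ u ∈ U, u ∈ Ginf ∧ ¬ Sc ρ (σ * u) ∧ ∃ (c : ℕ) (V : Subgroup GQ), IsOpen (V : Set GQ) ∧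
      V.Normal ∧ V ≤ U ∧ ∀ (q k : ℕ) (φ : GQ), Odd k → φ⁻¹ * (σ * u) ^ k ∈ V → ¬ Sc ρ φ →
        (q : B) - 1 ∈ m ^ c → ∀ p ∈ s, Dq r q φ ∉ p ⊔ m ^ c := by
  obtain ⟨u, hu, hu', h⟩ := avoid red r hD hr m hc s hp hcl hU hn h1 hI hs
  obtain ⟨c, c0, hc'⟩ := exists_c m s hcl _ h
  have := Kc_normal r (m ^ c)
  refine ⟨u, hu, hu', by rwa [sc_mul (h1 u hu)], c, U ⊓ Kc r (m ^ c), hU.inter (hc.isOpen c),
    inferInstance, inf_le_left, fun q k φ hk hφ hsc hq p hps e => ?_⟩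
  have e1 : disc (r φ : M2 B) ∈ p ⊔ m ^ c := by
    have := Ideal.sub_mem _ e (Ideal.mem_sup_right (S := p) (Dq_sub r _ hq φ))
    rwa [sub_sub_cancel] at this
  by_cases hφH : φ ∈ H
  · refine red_disc_ne red r hD hr hφH hsc ?_
    obtain ⟨a, ha, b, hb, e2⟩ := Submodule.mem_sup.1 e1
    rw [← e2, map_add, (hp p hps).2.1 a ha, hm b (Ideal.pow_le_self c0.ne' hb), add_zero]
  · have e2 : disc (r ((σ * u) ^ k) : M2 B) ∈ p ⊔ m ^ c := by
      have := Ideal.add_mem _ (Ideal.mem_sup_right (S := p) (disc_sub r (m ^ c) φ hφ.2)) e1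
      rwa [sub_add_cancel, mul_inv_cancel_left] at this
    have hσ : σ * u ∉ H := fun hh => hφH (by
      have h3 : φ⁻¹ * (σ * u) ^ k ∈ H := by
        rw [mem_iff hD, mx, h1 _ hφ.1]; simp
      exact H.inv_mem_iff.1 ((H.mul_mem_cancel_right (H.pow_mem hh k)).1 h3))
    obtain ⟨j, rfl⟩ := hk
    have ht : red (r (σ * u) : M2 B).trace = 0 := by
      rw [← map_trace, ← hr, Matrix.trace_fin_two, (hD.ad _ hσ).1, (hD.ad _ hσ).2, add_zero]
    obtain ⟨P, Q, e3, hP, -⟩ := odd_pow red _ ht j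
    have hPu : IsUnit (P ^ 2) := (hun P (by
      rw [hP]; exact pow_ne_zero _ (neg_ne_zero.2 (red_det_ne (rm r) red (σ * u))))).pow 2
    rw [map_pow, Units.val_pow_eq_pow_val, e3, disc_lin, Ideal.unit_mul_mem_iff_mem _ hPu] at e2
    exact hc' p hps e2

/-- ideals of a Noetherian local ring are closed -/
theorem closed_of_noeth [IsNoetherianRing B] [IsLocalRing B] (p : Ideal B) (x : B)
    (h : ∀ c : ℕ, x ∈ p ⊔ IsLocalRing.maximalIdeal B ^ c) : x ∈ p := by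
  have hb := Ideal.iInf_pow_smul_eq_bot_of_isLocalRing (R := B) (M := B ⧸ p)
    (IsLocalRing.maximalIdeal B) (IsLocalRing.maximalIdeal.isMaximal B).ne_top
  rw [← Ideal.Quotient.eq_zero_iff_mem, ← Submodule.mem_bot B, ← hb, Submodule.mem_iInf]
  intro c
  obtain ⟨a, ha, b, hb, rfl⟩ := Submodule.mem_sup.1 (h c)
  rw [map_add, Ideal.Quotient.eq_zero_iff_mem.2 ha, zero_add]
  have : Ideal.Quotient.mk p b = b • (1 : B ⧸ p) := by
    rw [Algebra.smul_def, mul_one]; rfl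
  rw [this]
  exact Submodule.smul_mem_smul hb trivial

end Vale.Agent.P022D.Good
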