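import Vale.Agent.P022D.Good.Core
import Vale.Agent.P022D.Sel.Defs

/-!
P022D, block Good: a lift of a dihedral representation whose trace vanishes on a coset is
dihedral (characteristic two); the discriminant does not vanish on a coset (characteristic zero).
-/

set_option linter.all false

noncomputable section

namespace Vale.Agent.P022D.Good

section Abs

variable {G B F Ω : Type*} [Group G] [CommRing B] [Field F] [Field Ω]

/-- the reduction is diagonal on `H`, antidiagonal outside, `h` is not scalar -/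
structure Dat (r : G →* M2 B) (red : B →+* F) (H I : Subgroup G) (h : G) : Prop where
  dg : ∀ g ∈ H, red (r g 0 1) = 0 ∧ red (r g 1 0) = 0
  ad : ∀ g ∉ H, red (r g 0 0) = 0 ∧ red (r g 1 1) = 0
  nI : I.Normal
  nH : H.Normal
  hH : h ∈ H
  hI : h ∈ I
  hne : red (r h 0 0) ≠ red (r h 1 1)

theorem red_det_ne (r : G →* M2 B) (red : B →+* F) (g : G) : red (r g).det ≠ 0 := by
  have : red (r g).det * red (r g⁻¹).det = 1 := by
    rw [← map_mul, ← Matrix.det_mul, ← map_mul, mul_inv_cancel, map_one, Matrix.det_one, map_one]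
  exact left_ne_zero_of_mul_eq_one this

variable {r : G →* M2 B} {red : B →+* F} {H I : Subgroup G} {h : G}

/-- a model over an algebraically closed field in which `h` is diagonal -/
theorem Dat.model [CharP F 2] [IsAlgClosed Ω] (D : Dat r red H I h) (φ : B →+* Ω)
    (hφ : ∀ x, φ x = 0 → red x = 0) :
    ∃ (R : G →* M2 Ω) (α β : Ω), R h = !![α, 0; 0, β] ∧ α ^ 2 ≠ β ^ 2 ∧
      (∀ g, (R g).trace = φ (r g).trace ∧ (R g).det = φ (r g).det) ∧
      ∀ g ∉ H, R g 0 1 ≠ 0 ∧ R g 1 0 ≠ 0 := by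
  have two : (2 : F) = 0 := CharTwo.two_eq_zero
  have hs : red (r h 0 0) - red (r h 1 1) ≠ 0 := sub_ne_zero.2 D.hne
  have hdisc : disc ((r h).map φ) ≠ 0 := by
    rw [map_disc]
    refine fun e => pow_ne_zero 2 hs ?_
    have := hφ _ e
    simp only [disc, Matrix.trace_fin_two, Matrix.det_fin_two, map_sub, map_pow, map_add, map_mul,
      map_ofNat, (D.dg h D.hH).1] at this
    linear_combination this
  obtain ⟨α, β, P, Q, hne, hPQ, hQP, hd⟩ := exists_diag _ hdisc
  let R : G →* M2 Ω :=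
    { toFun := fun g => Q * (r g).map φ * P
      map_one' := by simp [hQP]
      map_mul' := fun g g' => by
        rw [map_mul, Matrix.map_mul]
        calc Q * ((r g).map φ * (r g').map φ) * P
            = Q * (r g).map φ * (P * Q) * (r g').map φ * P := by
              rw [hPQ]; simp only [mul_assoc, one_mul]
          _ = _ := by simp only [mul_assoc] }
  have hR : ∀ g, R g = Q * (r g).map φ * P := fun _ => rfl
  have dQP : Q.det * P.det = 1 := by rw [← Matrix.det_mul, hQP, Matrix.det_one]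
  have cdet : ∀ X : M2 Ω, (Q * X * P).det = X.det := fun X => by
    rw [Matrix.det_mul, Matrix.det_mul]; linear_combination X.det * dQP
  have ctr : ∀ X : M2 Ω, (Q * X * P).trace = X.trace := fun X => by
    rw [Matrix.trace_mul_comm, ← mul_assoc, hPQ, one_mul]
  have htd : ∀ g, (R g).trace = φ (r g).trace ∧ (R g).det = φ (r g).det := fun g => by
    rw [hR, ctr, cdet, map_trace, map_det]; exact ⟨rfl, rfl⟩
  have hh : R h = !![α, 0; 0, β] := hd
  refine ⟨R, α, β, hh, fun e => ?_, htd, fun g hg => ?_⟩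
  · have e1 : (α - β) * (α + β) = 0 := by linear_combination e
    have e2 := (mul_eq_zero.1 e1).resolve_left (sub_ne_zero.2 hne)
    have e3 := (htd h).1
    rw [hh, Matrix.trace_fin_two_of, e2] at e3
    have := hφ _ e3.symm
    rw [Matrix.trace_fin_two, map_add] at this
    exact hs (by linear_combination this - red (r h 1 1) * two)
  · have e1 : R (h * g) - R (g * h) = Q * (r (h * g) - r (g * h)).map φ * P := by
      rw [hR, hR, Matrix.map_sub _ (map_sub φ), mul_sub, sub_mul]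
    have e2 := congrArg Matrix.det e1
    rw [cdet, map_det] at e2
    have e3 : (R (h * g) - R (g * h)).det = (α - β) ^ 2 * (R g 0 1 * R g 1 0) := by
      rw [map_mul, map_mul, hh, Matrix.det_fin_two]
      simp only [Matrix.sub_apply, Matrix.mul_apply, Fin.sum_univ_two]
      simp
      ring
    have e4 : R g 0 1 * R g 1 0 ≠ 0 := fun e => by
      rw [e3, e, mul_zero] at e2
      have e5 := hφ _ e2.symm
      have e6 := red_det_ne r red g
      rw [Matrix.det_fin_two] at e5 e6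
      simp only [map_mul, Matrix.sub_apply, Matrix.mul_apply, Fin.sum_univ_two, map_sub, map_add,
        (D.dg h D.hH).1, (D.dg h D.hH).2, (D.ad g hg).1, (D.ad g hg).2] at e5 e6
      refine mul_ne_zero (pow_ne_zero 2 hs) e6 ?_
      linear_combination -e5
    exact ⟨left_ne_zero_of_mul e4, right_ne_zero_of_mul e4⟩

/-- **Clifford step.** -/
theorem Dat.cliff [CharP F 2] [CharP Ω 2] [IsAlgClosed Ω] (D : Dat r red H I h) (φ : B →+* Ω)
    (hφ : ∀ x, φ x = 0 → red x = 0) {U : Subgroup G} (hU : U.Normal)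
    (hp : ∀ g : G, ∃ k, 0 < k ∧ g ^ k ∈ U) {σ : G} (hI : σ ∈ I) (hσ : σ ∉ H)
    (h0 : ∀ u ∈ U, u ∈ I → φ (r (σ * u)).trace = 0) {g : G} (hg : g ∉ H) :
    φ (r g).trace = 0 := by
  have two : (2 : F) = 0 := CharTwo.two_eq_zero
  have two' : (2 : Ω) = 0 := CharTwo.two_eq_zero
  obtain ⟨R, α, β, hh, h2, htd, hoff⟩ := D.model φ hφ
  have := D.nI
  have := D.nH
  rw [← (htd g).1]
  have hN : (U ⊓ I).Normal := inferInstance
  have hd : ∀ n ∈ U ⊓ I, R n 0 1 = 0 ∧ R n 1 0 = 0 := fun n hn =>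
    diag_of_orth hh h2 hN (R σ) (hoff σ hσ).1 (hoff σ hσ).2
      (fun n hn => by rw [← map_mul, (htd _).1]; exact h0 n hn.1 hn.2) hn
  by_cases hs : ∃ n ∈ U ⊓ I, R n 0 0 ≠ R n 1 1
  · obtain ⟨n, hn, hne⟩ := hs
    exact trace_zero_of_norm hN hd hn hne (hoff g hg).1 (hoff g hg).2
  push Not at hs
  let ρ : G →* M2 F := (RingHom.mapMatrix red).toMonoidHom.comp r
  have hρ : ∀ g i j, ρ g i j = red (r g i j) := fun _ _ _ => rfl
  have hK : (ρ.ker ⊓ I).Normal := inferInstance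
  have htr : ∀ n ∈ ρ.ker ⊓ I, (R n).trace = 0 := fun n hn => by
    obtain ⟨k, hk, hu⟩ := hp n
    rw [(htd n).1]
    have h1 : ρ n = 1 := hn.1
    refine trace_zero_of_pow red φ hφ (r n) ?_ (red_det_ne r red n) k hk ?_
    · rw [Matrix.trace_fin_two, map_add, ← hρ, ← hρ, h1]
      simp only [Matrix.one_apply_eq]
      linear_combination two
    · rw [← map_pow, ← (htd _).1, Matrix.trace_fin_two, hs _ ⟨hu, I.pow_mem hn.2 k⟩]
      linear_combination R (n ^ k) 1 1 * two'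
  have hN1 : (H ⊓ I).Normal := inferInstance
  have hd1 : ∀ n ∈ H ⊓ I, R n 0 1 = 0 ∧ R n 1 0 = 0 := fun n hn => by
    refine diag_of_comm hh h2 (scalar_of_trace hh h2 hK htr (hoff σ hσ).1 (hoff σ hσ).2 ⟨?_, ?_⟩)
    · have c : ρ h * ρ n = ρ n * ρ h := by
        ext i j
        fin_cases i <;> fin_cases j <;>
          simp [Matrix.mul_apply, Fin.sum_univ_two, hρ, (D.dg h D.hH).1, (D.dg h D.hH).2,
            (D.dg n hn.1).1, (D.dg n hn.1).2, mul_comm]
      show ρ (h * n * h⁻¹ * n⁻¹) = 1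
      rw [map_mul, map_mul, map_mul, c, mul_assoc (ρ n), ← map_mul, mul_inv_cancel, map_one,
        mul_one, ← map_mul, mul_inv_cancel, map_one]
    · exact I.mul_mem (D.nI.conj_mem n hn.2 h) (I.inv_mem hn.2)
  refine trace_zero_of_norm hN1 hd1 ⟨D.hH, D.hI⟩ ?_ (hoff g hg).1 (hoff g hg).2
  rw [hh]
  simpa using fun e => h2 (by rw [e])

theorem Dat.disc_ne [CharP F 2] [CharZero Ω] [IsAlgClosed Ω] (D : Dat r red H I h) (φ : B →+* Ω)
    (hφ : ∀ x, φ x = 0 → red x = 0) {U : Subgroup G} (hU : U.Normal)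
    (hp : ∀ g : G, ∃ k, 0 < k ∧ g ^ k ∈ U) {σ : G} (hI : σ ∈ I) (hσ : σ ∉ H) :
    ∃ u ∈ U, u ∈ I ∧ φ (disc (r (σ * u))) ≠ 0 := by
  obtain ⟨R, α, β, hh, h2, htd, hoff⟩ := D.model φ hφ
  have := D.nI
  obtain ⟨k, hk, hu⟩ := hp σ
  obtain ⟨u, hu, hd⟩ := Good.disc_ne hh (fun e => h2 (by rw [e])) (N := U ⊓ I) inferInstance
    (hoff σ hσ).1 (hoff σ hσ).2 hk ⟨hu, I.pow_mem hI k⟩
  refine ⟨u, hu.1, hu.2, fun e => hd ?_⟩
  rw [disc, (htd _).1, (htd _).2]
  rw [disc, map_sub, map_pow, map_mul φ, map_ofNat] at e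
  exact e

end Abs

open Vale.Agent.P022 Vale.Agent.P022.C Vale.Agent.P022D.Sel
open Vale.Agent.P027M.S (mx)

theorem ginf_normal : Ginf.Normal := ⟨fun g hg k n x hx => by
  have : g (k⁻¹ x) = k⁻¹ x := hg n _ (by
    rcases hx with hx | hx
    · left; rw [← map_pow, hx, map_one]
    · right; rw [← map_pow, hx, map_ofNat])
  rw [AlgEquiv.mul_apply, AlgEquiv.mul_apply, this, ← AlgEquiv.mul_apply, mul_inv_cancel]
  rfl⟩

theorem pow_mem_open {U : Subgroup GQ} (hU : IsOpen (U : Set GQ)) (hn : U.Normal) (g : GQ) :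
    ∃ k, 0 < k ∧ g ^ k ∈ U := by
  have a1 : IsAlgClosure ℚ Qb := AlgebraicClosure.instIsAlgClosure ℚ
  have a3 : IsGalois ℚ Qb := IsAlgClosure.isGalois ℚ Qb
  have : Finite (GQ ⧸ U) := Subgroup.quotient_finite_of_isOpen U hU
  have : U.FiniteIndex := Subgroup.finiteIndex_of_finite_quotient
  exact ⟨U.index, Nat.pos_of_ne_zero Subgroup.FiniteIndex.index_ne_zero, U.pow_index_mem g⟩

variable {F : Type} [Field F] {ρ : GQ →* GL (Fin 2) F} {H : Subgroup GQ}

theorem mx_mul (g g' : GQ) (i j : Fin 2) :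
    mx ρ (g * g') i j = mx ρ g i 0 * mx ρ g' 0 j + mx ρ g i 1 * mx ρ g' 1 j := by
  simp only [mx, map_mul, Units.val_mul, Matrix.mul_apply, Fin.sum_univ_two]

theorem mx_det (g : GQ) : mx ρ g 0 0 * mx ρ g 1 1 - mx ρ g 0 1 * mx ρ g 1 0 ≠ 0 := by
  rw [← Matrix.det_fin_two]
  exact (ρ g).det_ne_zero

theorem mem_iff (hD : Dh ρ H) (g : GQ) : g ∈ H ↔ mx ρ g 0 1 = 0 :=
  ⟨fun hg => (hD.dg g hg).1, fun h0 => by
    by_contra hg
    exact mx_det (ρ := ρ) g (by rw [(hD.ad g hg).1, h0]; ring)⟩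

theorem dh_normal (hD : Dh ρ H) : H.Normal := ⟨fun n hn g => by
  by_cases hg : g ∈ H
  · exact H.mul_mem (H.mul_mem hg hn) (H.inv_mem hg)
  · have hg' : g⁻¹ ∉ H := fun e => hg (H.inv_mem_iff.1 e)
    rw [mem_iff hD, mx_mul, mx_mul, mx_mul, (hD.ad g hg).1, (hD.ad _ hg').2, (hD.dg n hn).2]
    ring⟩

theorem exists_h [CharP F 2] (hD : Dh ρ H) {σ : GQ} (hI : σ ∈ Ginf) (hσ : σ ∉ H) :
    ∃ h ∈ H, h ∈ Ginf ∧ mx ρ h 0 0 ≠ mx ρ h 1 1 := by
  have two : (2 : F) = 0 := CharTwo.two_eq_zero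
  obtain ⟨g, hg, hne⟩ := hD.irr
  have hm : σ * g⁻¹ * σ⁻¹ ∈ H := (dh_normal hD).conj_mem _ (H.inv_mem hg) σ
  refine ⟨g * (σ * g⁻¹ * σ⁻¹), H.mul_mem hg hm, ?_, fun e => hne ?_⟩
  · have : g * (σ * g⁻¹ * σ⁻¹) = g * σ * g⁻¹ * σ⁻¹ := by group
    rw [this]
    exact Ginf.mul_mem (ginf_normal.conj_mem σ hI g) (Ginf.inv_mem hI)
  · set m := σ * g⁻¹ * σ⁻¹ with hm'
    have e1 : m * (σ * g) = σ := by rw [hm']; group
    have e2 := mx_mul (ρ := ρ) m (σ * g) 0 1
    have e3 := mx_mul (ρ := ρ) m (σ * g) 1 0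
    rw [e1, mx_mul σ g, mx_mul σ g] at e2 e3
    rw [mx_mul g m, mx_mul g m] at e
    have d := mx_det (ρ := ρ) σ
    simp only [(hD.dg g hg).1, (hD.dg g hg).2, (hD.dg m hm).1, (hD.dg m hm).2, (hD.ad σ hσ).1,
      (hD.ad σ hσ).2, zero_mul, mul_zero, add_zero, zero_add, zero_sub, neg_ne_zero] at e e2 e3 d
    have f1 : mx ρ m 0 0 * mx ρ g 1 1 = 1 :=
      mul_left_cancel₀ (left_ne_zero_of_mul d) (by linear_combination -e2)
    have f2 : mx ρ m 1 1 * mx ρ g 0 0 = 1 :=
      mul_left_cancel₀ (right_ne_zero_of_mul d) (by linear_combination -e3)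
    have : (mx ρ g 0 0 - mx ρ g 1 1) ^ 2 = 0 := by
      linear_combination mx ρ g 0 0 * mx ρ g 1 1 * e - mx ρ g 0 0 ^ 2 * f1 +
        mx ρ g 1 1 ^ 2 * f2 + (mx ρ g 1 1 ^ 2 - mx ρ g 0 0 * mx ρ g 1 1) * two
    exact sub_eq_zero.1 (pow_eq_zero_iff two_ne_zero |>.1 this)

/-- the underlying map to matrices -/
def rm {B : Type*} [CommRing B] (r : GQ →* GL (Fin 2) B) : GQ →* M2 B :=
  (Units.coeHom _).comp r

theorem exists_dat [CharP F 2] {B : Type*} [CommRing B] (red : B →+* F)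
    (r : GQ →* GL (Fin 2) B) (hD : Dh ρ H) (hr : ∀ g, mx ρ g = (r g : M2 B).map red) {σ : GQ}
    (hI : σ ∈ Ginf) (hσ : σ ∉ H) : ∃ h, Dat (rm r) red H Ginf h := by
  have e : ∀ g i j, red (rm r g i j) = mx ρ g i j := fun g i j => by rw [hr]; rfl
  obtain ⟨h, h1, h2, h3⟩ := exists_h hD hI hσ
  exact ⟨h, fun g hg => by rw [e, e]; exact hD.dg g hg, fun g hg => by rw [e, e]; exact hD.ad g hg,
    ginf_normal, dh_normal hD, h1, h2, by rw [e, e]; exact h3⟩

/-- a non scalar element of `H` has a residually non zero discriminant -/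
theorem red_disc_ne [CharP F 2] {B : Type*} [CommRing B] (red : B →+* F)
    (r : GQ →* GL (Fin 2) B) (hD : Dh ρ H) (hr : ∀ g, mx ρ g = (r g : M2 B).map red) {σ : GQ}
    (hσ : σ ∈ H) (hs : ¬ Sc ρ σ) : red (disc (r σ : M2 B)) ≠ 0 := by
  rw [← map_disc, ← hr, disc, Matrix.trace_fin_two, Matrix.det_fin_two, (hD.dg σ hσ).1]
  refine fun e => hs ⟨(hD.dg σ hσ).1, (hD.dg σ hσ).2, sub_eq_zero.1 ?_⟩
  exact pow_eq_zero_iff two_ne_zero |>.1 (by linear_combination e)

theorem disc_stmt : DISC := by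
  intro F O _ _ _ _ _ red r ρ H hD hr hu U σ hU hn hI hs
  by_cases hσ : σ ∈ H
  · refine ⟨1, U.one_mem, Ginf.one_mem, fun e => red_disc_ne red r hD hr hσ hs ?_⟩
    rw [mul_one] at e
    rw [disc, e, map_zero]
  · obtain ⟨h, D⟩ := exists_dat red r hD hr hI hσ
    let Ω := AlgebraicClosure (FractionRing O)
    let φ : O →+* Ω := (algebraMap (FractionRing O) Ω).comp (algebraMap O (FractionRing O))
    have hφ : Function.Injective φ :=
      (algebraMap (FractionRing O) Ω).injective.comp (IsFractionRing.injective O _)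
    have : CharZero Ω := charZero_of_injective_ringHom hφ
    obtain ⟨u, h1, h2, h3⟩ := D.disc_ne φ
      (fun x hx => by rw [hφ (hx.trans (map_zero φ).symm), map_zero]) hn (pow_mem_open hU hn) hI hσ
    exact ⟨u, h1, h2, fun e => h3 (by rw [show disc (rm r (σ * u)) = 0 from e, map_zero])⟩

/-- the map of a ring to an algebraic closure of the residue field of a prime -/
def gen {B : Type*} [CommRing B] (p : Ideal B) [p.IsPrime] :
    B →+* AlgebraicClosure (FractionRing (B ⧸ p)) :=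
  (algebraMap (FractionRing (B ⧸ p)) _).comp
    ((algebraMap (B ⧸ p) (FractionRing (B ⧸ p))).comp (Ideal.Quotient.mk p))

theorem gen_eq_zero {B : Type*} [CommRing B] (p : Ideal B) [p.IsPrime] (x : B) :
    gen p x = 0 ↔ x ∈ p := by
  simp only [gen, RingHom.comp_apply, map_eq_zero, FaithfulSMul.algebraMap_eq_zero_iff,
    Ideal.Quotient.eq_zero_iff_mem]

/-- **One prime.** `p` is a prime inside the kernel of the reduction; if `2 ∈ p` some trace
outside `H` is not in `p`. Then every coset contains an element with discriminant outside `p`. -/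
theorem one_prime [CharP F 2] {B : Type*} [CommRing B] (red : B →+* F)
    (r : GQ →* GL (Fin 2) B) (hD : Dh ρ H) (hr : ∀ g, mx ρ g = (r g : M2 B).map red)
    (p : Ideal B) [p.IsPrime] (hp : ∀ x ∈ p, red x = 0)
    (hnd : (2 : B) ∈ p → ∃ g ∉ H, (r g : M2 B).trace ∉ p)
    {U : Subgroup GQ} (hU : IsOpen (U : Set GQ)) (hn : U.Normal) {σ : GQ} (hI : σ ∈ Ginf)
    (hs : ¬ Sc ρ σ) : ∃ u ∈ U, u ∈ Ginf ∧ disc (r (σ * u) : M2 B) ∉ p := by
  by_cases hσ : σ ∈ H
  · exact ⟨1, U.one_mem, Ginf.one_mem, fun e => red_disc_ne red r hD hr hσ hs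
      (hp _ (by rwa [mul_one] at e))⟩
  obtain ⟨h, D⟩ := exists_dat red r hD hr hI hσ
  have hφ : ∀ x, gen p x = 0 → red x = 0 := fun x hx => hp x ((gen_eq_zero p x).1 hx)
  by_cases h2 : (2 : B) ∈ p
  · obtain ⟨g, hg, ht⟩ := hnd h2
    have two : (2 : AlgebraicClosure (FractionRing (B ⧸ p))) = 0 := by
      rw [← map_ofNat (gen p)]; exact (gen_eq_zero p _).2 h2
    have : CharP (AlgebraicClosure (FractionRing (B ⧸ p))) 2 :=
      (CharP.charP_iff_prime_eq_zero Nat.prime_two).2 (by exact_mod_cast two)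
    by_contra hcon
    push Not at hcon
    refine ht ((gen_eq_zero p _).1 (D.cliff (gen p) hφ hn (pow_mem_open hU hn) hI hσ
      (fun u hu hu' => ?_) hg))
    have e := (gen_eq_zero p _).2 (hcon u hu hu')
    rw [disc, map_sub, map_mul (gen p), map_pow, map_ofNat] at e
    refine pow_eq_zero_iff two_ne_zero |>.1 ?_
    have e' : gen p (rm r (σ * u)).trace ^ 2 - 4 * gen p (rm r (σ * u)).det = 0 := e
    linear_combination e' + 2 * gen p (rm r (σ * u)).det * two
  · have : CharZero (AlgebraicClosure (FractionRing (B ⧸ p))) := by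
      refine charZero_of_inj_zero fun n hn => ?_
      induction n using Nat.strong_induction_on with
      | _ n ih =>
        rcases Nat.even_or_odd' n with ⟨j, rfl | rfl⟩
        · rcases Nat.eq_zero_or_pos j with rfl | hj
          · rfl
          · rw [Nat.cast_mul, Nat.cast_ofNat, mul_eq_zero] at hn
            rcases hn with hn | hn
            · exact absurd ((gen_eq_zero p _).1 (by rw [map_ofNat]; exact hn)) h2
            · exact absurd (ih j (by omega) hn) hj.ne'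
        · have := hφ ((2 * j + 1 : ℕ) : B) (by rw [map_natCast]; exact hn)
          rw [map_natCast, Nat.cast_add, Nat.cast_mul, Nat.cast_ofNat,
            (CharTwo.two_eq_zero : (2 : F) = 0), zero_mul, zero_add, Nat.cast_one] at this
          exact absurd this one_ne_zero
    obtain ⟨u, h1, h3, h4⟩ := D.disc_ne (gen p) hφ hn (pow_mem_open hU hn) hI hσ
    exact ⟨u, h1, h3, fun e => h4 ((gen_eq_zero p _).2 e)⟩

end Vale.Agent.P022D.Good
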