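import Mathlib

/-!
P022D, block Good: two dimensional representations whose trace (characteristic two) or whose
discriminant (characteristic zero) vanishes on a coset. Pure algebra.
-/

set_option linter.all false

namespace Vale.Agent.P022D.Good

/-- `2 × 2` matrices -/
abbrev M2 (R : Type*) := Matrix (Fin 2) (Fin 2) R

/-- the discriminant of the characteristic polynomial -/
def disc {R : Type*} [CommRing R] (A : M2 R) : R := A.trace ^ 2 - 4 * A.det

section Ring

variable {B F : Type*} [CommRing B] [CommRing F]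

theorem sq_eq (A : M2 B) : A * A = A.trace • A - A.det • (1 : M2 B) := by
  ext i j
  fin_cases i <;> fin_cases j <;>
    simp [Matrix.mul_apply, Fin.sum_univ_two, Matrix.trace_fin_two, Matrix.det_fin_two] <;> ring

theorem disc_lin (A : M2 B) (p q : B) : disc (p • A + q • (1 : M2 B)) = p ^ 2 * disc A := by
  simp [disc, Matrix.trace_fin_two, Matrix.det_fin_two]
  ring

theorem trace_lin (A : M2 B) (p q : B) :
    (p • A + q • (1 : M2 B)).trace = p * A.trace + 2 * q := by
  simp [Matrix.trace_fin_two]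
  ring

theorem trace_sq (A : M2 B) : (A * A).trace = A.trace ^ 2 - 2 * A.det := by
  simp [Matrix.mul_apply, Fin.sum_univ_two, Matrix.trace_fin_two, Matrix.det_fin_two]
  ring

theorem map_disc (φ : B →+* F) (A : M2 B) : disc (A.map φ) = φ (disc A) := by
  simp [disc, Matrix.trace_fin_two, Matrix.det_fin_two, map_ofNat]

theorem map_trace (φ : B →+* F) (A : M2 B) : (A.map φ).trace = φ A.trace := by
  simp [Matrix.trace_fin_two]

theorem map_det (φ : B →+* F) (A : M2 B) : (A.map φ).det = φ A.det := by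
  simp [Matrix.det_fin_two]

/-- odd powers of a matrix with residual trace zero -/
theorem odd_pow (red : B →+* F) (A : M2 B) (ht : red A.trace = 0) (m : ℕ) :
    ∃ p q : B, A ^ (2 * m + 1) = p • A + q • (1 : M2 B) ∧ red p = (- red A.det) ^ m ∧
      red q = 0 := by
  induction m with
  | zero => exact ⟨1, 0, by simp, by simp, by simp⟩
  | succ m ih =>
    obtain ⟨p, q, h, hp, hq⟩ := ih
    refine ⟨p * (A.trace ^ 2 - A.det) + q * A.trace, - (p * A.trace * A.det) - q * A.det, ?_, ?_,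
      ?_⟩
    · have e : A ^ (2 * (m + 1) + 1) = A ^ (2 * m + 1) * (A * A) := by
        rw [← sq, ← pow_add]; congr 1
      rw [e, h, sq_eq]
      simp only [add_mul, mul_sub, smul_mul_assoc, mul_smul_comm, one_mul, mul_one, sq_eq]
      module
    · simp [ht, hp, hq, pow_succ]
    · simp [ht, hq]

end Ring

section Field

variable {B F Ω : Type*} [CommRing B] [Field F] [Field Ω]

theorem trace_zero_of_pow [CharP Ω 2] (red : B →+* F) (φ : B →+* Ω)
    (hφ : ∀ x, φ x = 0 → red x = 0) (A : M2 B) (ht : red A.trace = 0) (hd : red A.det ≠ 0)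
    (k : ℕ) (hk : 0 < k) (h : φ (A ^ k).trace = 0) : φ A.trace = 0 := by
  have h2 : (2 : Ω) = 0 := CharTwo.two_eq_zero
  induction k using Nat.strong_induction_on with
  | _ k ih =>
    rcases Nat.even_or_odd' k with ⟨j, rfl | rfl⟩
    · refine ih j (by omega) (by omega) ?_
      rw [two_mul, pow_add, trace_sq, map_sub, map_mul, map_ofNat, h2, zero_mul, sub_zero,
        map_pow] at h
      exact pow_eq_zero_iff two_ne_zero |>.1 h
    · obtain ⟨p, q, e, hp, -⟩ := odd_pow red A ht j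
      rw [e, trace_lin, map_add, map_mul, map_mul, map_ofNat, h2, zero_mul, add_zero] at h
      refine (mul_eq_zero.1 h).resolve_left fun h0 => ?_
      have := hφ p h0
      rw [hp] at this
      exact hd (neg_eq_zero.1 (pow_eq_zero_iff (by rintro rfl; simp at this) |>.1 this))

theorem exists_diag [IsAlgClosed Ω] (A : M2 Ω) (hA : disc A ≠ 0) :
    ∃ (α β : Ω) (P Q : M2 Ω), α ≠ β ∧ P * Q = 1 ∧ Q * P = 1 ∧ Q * A * P = !![α, 0; 0, β] := by
  obtain ⟨α, hα⟩ := IsAlgClosed.exists_root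
    (Polynomial.C 1 * Polynomial.X ^ 2 + Polynomial.C (- A.trace) * Polynomial.X +
      Polynomial.C A.det) (by rw [Polynomial.degree_quadratic one_ne_zero]; decide)
  have hα' : α ^ 2 - A.trace * α + A.det = 0 := by
    have := hα.eq_zero
    simp only [Polynomial.eval_add, Polynomial.eval_mul, Polynomial.eval_C, Polynomial.eval_pow,
      Polynomial.eval_X] at this
    linear_combination this
  set β := A.trace - α with hβ
  have hne : α ≠ β := fun e => hA (by
    rw [disc]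
    have e' : A.trace = 2 * α := by rw [hβ] at e; linear_combination -e
    rw [e'] at hα' ⊢
    linear_combination (-4) * hα')
  have hab : α - β ≠ 0 := sub_ne_zero.2 hne
  rw [Matrix.trace_fin_two] at hβ
  rw [Matrix.trace_fin_two, Matrix.det_fin_two] at hα'
  have key : ∀ X : M2 Ω, X.det ≠ 0 → A * X = X * !![α, 0; 0, β] →
      ∃ (α β : Ω) (P Q : M2 Ω), α ≠ β ∧ P * Q = 1 ∧ Q * P = 1 ∧ Q * A * P = !![α, 0; 0, β] := by
    intro X hX h
    have hu : IsUnit X.det := hX.isUnit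
    refine ⟨α, β, X, X⁻¹, hne, Matrix.mul_nonsing_inv X hu, Matrix.nonsing_inv_mul X hu, ?_⟩
    rw [mul_assoc, h, ← mul_assoc, Matrix.nonsing_inv_mul X hu, one_mul]
  by_cases hb : A 0 1 = 0
  · by_cases hc : A 1 0 = 0
    · refine ⟨A 0 0, A 1 1, 1, 1, fun e => hA ?_, by simp, by simp, ?_⟩
      · rw [disc, Matrix.trace_fin_two, Matrix.det_fin_two, hb, e]; ring
      · ext i j
        fin_cases i <;> fin_cases j <;> simp [hb, hc]
    · refine key !![α - A 1 1, β - A 1 1; A 1 0, A 1 0] ?_ ?_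
      · rw [Matrix.det_fin_two_of]
        have : (α - A 1 1) * A 1 0 - (β - A 1 1) * A 1 0 = (α - β) * A 1 0 := by ring
        rw [this]; exact mul_ne_zero hab hc
      · ext i j
        fin_cases i <;> fin_cases j <;> simp [Matrix.mul_apply, Fin.sum_univ_two, hβ]
        · linear_combination -hα'
        · linear_combination -hα'
        · ring
        · ring
  · refine key !![A 0 1, A 0 1; α - A 0 0, β - A 0 0] ?_ ?_
    · rw [Matrix.det_fin_two_of]
      have : A 0 1 * (β - A 0 0) - A 0 1 * (α - A 0 0) = - ((α - β) * A 0 1) := by ring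
      rw [this]; exact neg_ne_zero.2 (mul_ne_zero hab hb)
    · ext i j
      fin_cases i <;> fin_cases j <;> simp [Matrix.mul_apply, Fin.sum_univ_two, hβ]
      · ring
      · ring
      · linear_combination -hα'
      · linear_combination -hα'

end Field

section Diag

variable {G Ω : Type*} [Group G] [Field Ω] (R : G →* M2 Ω)

theorem ent_mul (g g' : G) (i j : Fin 2) :
    R (g * g') i j = R g i 0 * R g' 0 j + R g i 1 * R g' 1 j := by
  rw [map_mul, Matrix.mul_apply, Fin.sum_univ_two]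

theorem det_ne (g : G) : (R g).det ≠ 0 := by
  have : (R g).det * (R g⁻¹).det = 1 := by
    rw [← Matrix.det_mul, ← map_mul, mul_inv_cancel, map_one, Matrix.det_one]
  exact left_ne_zero_of_mul_eq_one this

theorem conj_mul (g n : G) : R (g * n * g⁻¹) * R g = R g * R n := by
  rw [← map_mul, ← map_mul, inv_mul_cancel_right]

variable {R} {h : G} {α β : Ω}

theorem ab_ne (hh : R h = !![α, 0; 0, β]) : α ≠ 0 ∧ β ≠ 0 := by
  have := det_ne R h
  rw [hh, Matrix.det_fin_two_of] at this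
  constructor <;> rintro rfl <;> simp at this

theorem conj_h (hh : R h = !![α, 0; 0, β]) (n : G) :
    R (h * n * h⁻¹) 0 0 = R n 0 0 ∧ R (h * n * h⁻¹) 1 1 = R n 1 1 ∧
      R (h * n * h⁻¹) 0 1 = α / β * R n 0 1 ∧ R (h * n * h⁻¹) 1 0 = β / α * R n 1 0 := by
  obtain ⟨ha, hb⟩ := ab_ne hh
  have e := conj_mul R h n
  rw [hh] at e
  generalize R (h * n * h⁻¹) = Y at e ⊢
  have e00 := congrFun (congrFun e 0) 0
  have e01 := congrFun (congrFun e 0) 1
  have e10 := congrFun (congrFun e 1) 0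
  have e11 := congrFun (congrFun e 1) 1
  simp [Matrix.mul_apply, Fin.sum_univ_two] at e00 e01 e10 e11
  refine ⟨?_, ?_, ?_, ?_⟩
  · exact mul_right_cancel₀ ha (by rw [mul_comm (R n 0 0)]; exact e00)
  · exact mul_right_cancel₀ hb (by rw [mul_comm (R n 1 1)]; exact e11)
  · field_simp; linear_combination e01
  · field_simp; linear_combination e10

theorem theta_ne (ha : α ≠ 0) (hb : β ≠ 0) (h2 : α ^ 2 ≠ β ^ 2) :
    α / β ≠ 0 ∧ (α / β) ^ 2 - 1 ≠ 0 ∧ β / α = (α / β)⁻¹ := by
  refine ⟨div_ne_zero ha hb, fun e => h2 ?_, (inv_div _ _).symm⟩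
  field_simp at e
  linear_combination e

/-- a normal subgroup orthogonal to a matrix with non zero corners is diagonal -/
theorem diag_of_orth (hh : R h = !![α, 0; 0, β]) (h2 : α ^ 2 ≠ β ^ 2) {N : Subgroup G}
    (hN : N.Normal) (X : M2 Ω) (hb : X 0 1 ≠ 0) (hc : X 1 0 ≠ 0)
    (h0 : ∀ n ∈ N, (X * R n).trace = 0) {n : G} (hn : n ∈ N) : R n 0 1 = 0 ∧ R n 1 0 = 0 := by
  obtain ⟨ha, hb'⟩ := ab_ne hh
  obtain ⟨t0, t2, ti⟩ := theta_ne ha hb' h2
  have hn1 := hN.conj_mem n hn h
  have hn2 := hN.conj_mem _ hn1 h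
  obtain ⟨a1, d1, b1, c1⟩ := conj_h hh n
  obtain ⟨a2, d2, b2, c2⟩ := conj_h hh (h * n * h⁻¹)
  have e0 := h0 n hn
  have e1 := h0 _ hn1
  have e2 := h0 _ hn2
  simp only [Matrix.trace_fin_two, Matrix.mul_apply, Fin.sum_univ_two] at e0 e1 e2
  rw [a2, d2, b2, c2] at e2
  rw [a1, d1, b1, c1] at e1 e2
  rw [ti] at e1 e2
  generalize α / β = θ at *
  have t1 : θ - 1 ≠ 0 := fun e => t2 (by linear_combination (θ + 1) * e)
  have hi : θ * θ⁻¹ = 1 := mul_inv_cancel₀ t0
  generalize θ⁻¹ = η at *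
  have f1 : (θ - 1) * (X 1 0 * R n 0 1 * θ - X 0 1 * R n 1 0) = 0 := by
    linear_combination θ * (e1 - e0) - X 0 1 * R n 1 0 * hi
  have f2 : (θ - 1) * (X 1 0 * R n 0 1 * θ ^ 3 - X 0 1 * R n 1 0) = 0 := by
    linear_combination θ ^ 2 * (e2 - e1) - X 0 1 * R n 1 0 * (θ * η + 1 - θ) * hi
  have g1 := (mul_eq_zero.1 f1).resolve_left t1
  have g2 := (mul_eq_zero.1 f2).resolve_left t1
  have g3 : (θ ^ 2 - 1) * θ * (X 1 0 * R n 0 1) = 0 := by linear_combination g2 - g1
  have g4 := (mul_eq_zero.1 g3).resolve_left (mul_ne_zero t2 t0)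
  refine ⟨(mul_eq_zero.1 g4).resolve_left hc, (mul_eq_zero.1 ?_).resolve_left hb⟩
  linear_combination θ * g4 - g1

/-- an element with non zero corners normalising a non scalar diagonal group has trace zero -/
theorem trace_zero_of_norm {N : Subgroup G} (hN : N.Normal)
    (hd : ∀ n ∈ N, R n 0 1 = 0 ∧ R n 1 0 = 0) {n : G} (hn : n ∈ N) (hne : R n 0 0 ≠ R n 1 1)
    {g : G} (hb : R g 0 1 ≠ 0) (hc : R g 1 0 ≠ 0) : (R g).trace = 0 := by
  obtain ⟨b0, c0⟩ := hd n hn
  obtain ⟨b1, c1⟩ := hd _ (hN.conj_mem n hn g)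
  have e := conj_mul R g n
  generalize R (g * n * g⁻¹) = Y at e b1 c1
  have e00 := congrFun (congrFun e 0) 0
  have e01 := congrFun (congrFun e 0) 1
  have e10 := congrFun (congrFun e 1) 0
  have e11 := congrFun (congrFun e 1) 1
  simp only [Matrix.mul_apply, Fin.sum_univ_two, b0, c0, b1, c1, zero_mul, mul_zero, add_zero,
    zero_add] at e00 e01 e10 e11
  have p1 : Y 0 0 = R n 1 1 := mul_right_cancel₀ hb (by rw [e01, mul_comm])
  have p2 : Y 1 1 = R n 0 0 := mul_right_cancel₀ hc (by rw [e10, mul_comm])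
  have hs := sub_ne_zero.2 hne
  have q1 : R g 0 0 = 0 := (mul_eq_zero.1 (show R g 0 0 * (R n 0 0 - R n 1 1) = 0 by
    rw [p1] at e00; linear_combination -e00)).resolve_right hs
  have q2 : R g 1 1 = 0 := (mul_eq_zero.1 (show R g 1 1 * (R n 0 0 - R n 1 1) = 0 by
    rw [p2] at e11; linear_combination e11)).resolve_right hs
  rw [Matrix.trace_fin_two, q1, q2, add_zero]

/-- a normal subgroup with trace zero in characteristic two is scalar -/
theorem scalar_of_trace [CharP Ω 2] (hh : R h = !![α, 0; 0, β]) (h2 : α ^ 2 ≠ β ^ 2)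
    {N : Subgroup G} (hN : N.Normal) (h0 : ∀ n ∈ N, (R n).trace = 0) {s : G}
    (hb : R s 0 1 ≠ 0) (hc : R s 1 0 ≠ 0) {n : G} (hn : n ∈ N) :
    R n 0 1 = 0 ∧ R n 1 0 = 0 ∧ R n 0 0 = R n 1 1 := by
  have two : (2 : Ω) = 0 := CharTwo.two_eq_zero
  obtain ⟨ha, hb'⟩ := ab_ne hh
  obtain ⟨t0, t2, ti⟩ := theta_ne ha hb' h2
  have dg : ∀ n ∈ N, R n 0 0 = R n 1 1 := fun n hn => by
    have := h0 n hn
    rw [Matrix.trace_fin_two] at this
    linear_combination this - R n 1 1 * two
  have pr : ∀ n ∈ N, ∀ m ∈ N, R n 0 1 * R m 1 0 + R n 1 0 * R m 0 1 = 0 := fun n hn m hm => by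
    have := h0 _ (N.mul_mem hn hm)
    rw [Matrix.trace_fin_two, ent_mul, ent_mul, dg n hn, dg m hm] at this
    linear_combination this - R n 1 1 * R m 1 1 * two
  have pr2 : ∀ n ∈ N, ∀ m ∈ N, R n 0 1 * R m 1 0 = 0 ∧ R n 1 0 * R m 0 1 = 0 :=
    fun n hn m hm => by
      have e0 := pr n hn m hm
      have e1 := pr n hn _ (hN.conj_mem m hm h)
      obtain ⟨-, -, b1, c1⟩ := conj_h hh m
      rw [b1, c1, ti] at e1
      generalize α / β = θ at *
      have hi : θ * θ⁻¹ = 1 := mul_inv_cancel₀ t0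
      generalize θ⁻¹ = η at *
      have f : (θ ^ 2 - 1) * (R n 1 0 * R m 0 1) = 0 := by
        linear_combination θ * e1 - e0 - R n 0 1 * R m 1 0 * hi
      have g := (mul_eq_zero.1 f).resolve_left t2
      exact ⟨by linear_combination e0 - g, g⟩
  have hm := hN.conj_mem n hn s
  have e := conj_mul R s n
  obtain ⟨u1, u2⟩ := pr2 n hn _ hm
  obtain ⟨u3, -⟩ := pr2 n hn n hn
  have dm := dg _ hm
  have tm : (R (s * n * s⁻¹)).det = (R n).det := by
    have := congrArg Matrix.det e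
    rw [Matrix.det_mul, Matrix.det_mul, mul_comm (R s).det] at this
    exact mul_right_cancel₀ (det_ne R s) this
  obtain ⟨u4, -⟩ := pr2 _ hm _ hm
  have dn := dg n hn
  generalize R (s * n * s⁻¹) = Y at e u1 u2 dm tm u4
  rw [Matrix.det_fin_two, Matrix.det_fin_two, u3, u4, dm, dn] at tm
  have yx : Y 1 1 = R n 1 1 := by
    have : (Y 1 1 - R n 1 1) ^ 2 = 0 := by
      linear_combination tm + (R n 1 1 * R n 1 1 - Y 1 1 * R n 1 1) * two
    exact sub_eq_zero.1 (pow_eq_zero_iff two_ne_zero |>.1 this)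
  have e00 := congrFun (congrFun e 0) 0
  have e11 := congrFun (congrFun e 1) 1
  simp only [Matrix.mul_apply, Fin.sum_univ_two, dm, dn, yx] at e00 e11
  refine ⟨?_, ?_, dn⟩
  · have : R s 1 0 * (R n 0 1 * R n 0 1) = 0 := by
      linear_combination R s 0 1 * u1 - R n 0 1 * e11
    exact mul_self_eq_zero.1 ((mul_eq_zero.1 this).resolve_left hc)
  · have : R s 0 1 * (R n 1 0 * R n 1 0) = 0 := by
      linear_combination R s 1 0 * u2 - R n 1 0 * e00
    exact mul_self_eq_zero.1 ((mul_eq_zero.1 this).resolve_left hb)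

/-- an element whose commutator with `h` is scalar is diagonal -/
theorem diag_of_comm [CharP Ω 2] (hh : R h = !![α, 0; 0, β]) (h2 : α ^ 2 ≠ β ^ 2) {g : G}
    (hs : R (h * g * h⁻¹ * g⁻¹) 0 1 = 0 ∧ R (h * g * h⁻¹ * g⁻¹) 1 0 = 0 ∧
      R (h * g * h⁻¹ * g⁻¹) 0 0 = R (h * g * h⁻¹ * g⁻¹) 1 1) : R g 0 1 = 0 ∧ R g 1 0 = 0 := by
  have two : (2 : Ω) = 0 := CharTwo.two_eq_zero
  obtain ⟨ha, hb'⟩ := ab_ne hh
  obtain ⟨t0, t2, ti⟩ := theta_ne ha hb' h2
  have hdet : (R (h * g * h⁻¹ * g⁻¹)).det = 1 := by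
    have e1 : (R h).det * (R h⁻¹).det = 1 := by
      rw [← Matrix.det_mul, ← map_mul, mul_inv_cancel, map_one, Matrix.det_one]
    have e2 : (R g).det * (R g⁻¹).det = 1 := by
      rw [← Matrix.det_mul, ← map_mul, mul_inv_cancel, map_one, Matrix.det_one]
    simp only [map_mul, Matrix.det_mul]
    linear_combination (R g).det * (R g⁻¹).det * e1 + e2
  have e : R (h * g * h⁻¹ * g⁻¹) * R g = R (h * g * h⁻¹) := by
    rw [← map_mul, inv_mul_cancel_right]
  obtain ⟨-, -, b1, c1⟩ := conj_h hh g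
  obtain ⟨s1, s2, s3⟩ := hs
  generalize R (h * g * h⁻¹ * g⁻¹) = Y at e hdet s1 s2 s3
  rw [Matrix.det_fin_two, s1, s3] at hdet
  have y1 : Y 1 1 = 1 := by
    have : (Y 1 1 - 1) ^ 2 = 0 := by linear_combination hdet + (1 - Y 1 1) * two
    exact sub_eq_zero.1 (pow_eq_zero_iff two_ne_zero |>.1 this)
  have e01 := congrFun (congrFun e 0) 1
  have e10 := congrFun (congrFun e 1) 0
  rw [b1] at e01
  rw [c1, ti] at e10
  simp only [Matrix.mul_apply, Fin.sum_univ_two, s1, s2, s3, y1, zero_mul, add_zero, zero_add,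
    one_mul] at e01 e10
  generalize α / β = θ at *
  have t1 : θ - 1 ≠ 0 := fun e => t2 (by linear_combination (θ + 1) * e)
  have hi : θ * θ⁻¹ = 1 := mul_inv_cancel₀ t0
  generalize θ⁻¹ = η at *
  refine ⟨(mul_eq_zero.1 ?_).resolve_left t1, (mul_eq_zero.1 ?_).resolve_left t1⟩
  · linear_combination -e01
  · linear_combination θ * e10 + R g 1 0 * hi

/-- in characteristic zero the discriminant does not vanish on a whole coset -/
theorem disc_ne [CharZero Ω] (hh : R h = !![α, 0; 0, β]) (hne : α ≠ β) {N : Subgroup G}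
    (hN : N.Normal) {s : G} (hb : R s 0 1 ≠ 0) (hc : R s 1 0 ≠ 0) {k : ℕ} (hk : 0 < k)
    (hs : s ^ k ∈ N) : ∃ u ∈ N, disc (R (s * u)) ≠ 0 := by
  by_contra hcon
  push Not at hcon
  obtain ⟨ha, hb'⟩ := ab_ne hh
  have d0 := hcon 1 N.one_mem
  rw [mul_one, disc, Matrix.trace_fin_two, Matrix.det_fin_two] at d0
  set l : Ω := (R s 0 0 + R s 1 1) / 2 with hl
  set a : Ω := (R s 0 0 - R s 1 1) / 2 with ha'
  have s0 : R s 0 0 = l + a := by rw [hl, ha']; ring
  have s1 : R s 1 1 = l - a := by rw [hl, ha']; ring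
  clear_value l a
  have hq : a ^ 2 + R s 0 1 * R s 1 0 = 0 := by
    rw [s0, s1] at d0
    linear_combination d0 / 4
  have hl0 : l ≠ 0 := fun e => det_ne R s (by
    rw [Matrix.det_fin_two, s0, s1, e]; linear_combination -hq)
  have pw : ∀ j : ℕ, R (s ^ (j + 1)) 0 0 = l ^ j * (l + (j + 1) * a) ∧
      R (s ^ (j + 1)) 0 1 = l ^ j * ((j + 1) * R s 0 1) ∧
      R (s ^ (j + 1)) 1 0 = l ^ j * ((j + 1) * R s 1 0) ∧
      R (s ^ (j + 1)) 1 1 = l ^ j * (l - (j + 1) * a) := by
    intro j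
    induction j with
    | zero => simp [s0, s1]
    | succ j ih =>
      obtain ⟨i0, i1, i2, i3⟩ := ih
      rw [pow_succ s (j + 1)]
      simp only [ent_mul, i0, i1, i2, i3, s0, s1]
      push_cast
      refine ⟨?_, by ring, by ring, ?_⟩
      · linear_combination l ^ j * (j + 1) * hq
      · linear_combination l ^ j * (j + 1) * hq
  have hθ : α / β ≠ 0 := div_ne_zero ha hb'
  have hθ1 : α / β - 1 ≠ 0 := fun e => hne (by field_simp at e; linear_combination e)
  have key : ∀ j : ℕ, s ^ (j + 1) ∈ N →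
      4 * l ^ 2 * (α / β) + ((j + 1 : ℕ) : Ω) * (R s 0 1 * R s 1 0 * (α / β - 1) ^ 2) = 0 := by
    intro j hj
    have d1 := hcon _ (hN.conj_mem _ hj h)
    obtain ⟨a1, d1', b1, c1⟩ := conj_h hh (s ^ (j + 1))
    obtain ⟨i0, i1, i2, i3⟩ := pw j
    rw [disc, Matrix.trace_fin_two, Matrix.det_fin_two] at d1
    simp only [ent_mul R s] at d1
    rw [a1, d1', b1, c1, i0, i1, i2, i3, s0, s1, ← inv_div α β] at d1
    generalize α / β = θ at *
    have hi : θ * θ⁻¹ = 1 := mul_inv_cancel₀ hθ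
    have hj0 : ((j : Ω) + 1) ≠ 0 := by exact_mod_cast Nat.succ_ne_zero j
    have hbc : R s 0 1 * R s 1 0 ≠ 0 := mul_ne_zero hb hc
    have hL : l ^ j ≠ 0 := pow_ne_zero _ hl0
    push_cast
    generalize l ^ j = L at *
    generalize ((j : Ω) + 1) = J at *
    generalize R s 0 1 = b at *
    generalize R s 1 0 = c at *
    have hbc' : b * c = - a ^ 2 := by linear_combination hq
    have hτ : L ^ 2 * (J * (b * c) * (θ - 1) ^ 2) * (4 * l ^ 2 * θ + J * (b * c * (θ - 1) ^ 2)) =
        0 := by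
      have hη : θ⁻¹ = 1 / θ := inv_eq_one_div θ
      have e1 : ((l + a) * (L * (l + J * a)) + b * (θ⁻¹ * (L * (J * c))) +
          (c * (θ * (L * (J * b))) + (l - a) * (L * (l - J * a)))) * θ =
            L * (2 * l ^ 2 * θ + J * (b * c * (θ - 1) ^ 2)) := by
        linear_combination L * J * b * c * hi + 2 * L * J * θ * hq
      have e2 : ((l + a) * (L * (l + J * a)) + b * (θ⁻¹ * (L * (J * c)))) *
            (c * (θ * (L * (J * b))) + (l - a) * (L * (l - J * a))) -
          ((l + a) * (θ * (L * (J * b))) + b * (L * (l - J * a))) *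
            (c * (L * (l + J * a)) + (l - a) * (θ⁻¹ * (L * (J * c)))) = L ^ 2 * l ^ 4 := by
        have f : ((l + a) * (l - a) - b * c) * ((L * (l + J * a)) * (L * (l - J * a)) -
          (θ * (L * (J * b))) * (θ⁻¹ * (L * (J * c)))) = L ^ 2 * l ^ 4 := by
          have f1 : (l + a) * (l - a) - b * c = l ^ 2 := by linear_combination -hq
          have f2 : (L * (l + J * a)) * (L * (l - J * a)) -
              (θ * (L * (J * b))) * (θ⁻¹ * (L * (J * c))) = L ^ 2 * l ^ 2 := by
            linear_combination - L ^ 2 * J ^ 2 * hq - L ^ 2 * J ^ 2 * b * c * hi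
          rw [f1, f2]; ring
        linear_combination f
      rw [e2] at d1
      have e3 := congrArg (· ^ 2) e1
      linear_combination θ ^ 2 * d1 - e3
    refine (mul_eq_zero.1 hτ).resolve_left ?_
    exact mul_ne_zero (pow_ne_zero _ hL) (mul_ne_zero (mul_ne_zero hj0 hbc) (pow_ne_zero _ hθ1))
  obtain ⟨j, rfl⟩ : ∃ j, k = j + 1 := ⟨k - 1, by omega⟩
  have k1 := key j hs
  have k2 := key (2 * j + 1) (by
    rw [show 2 * j + 1 + 1 = (j + 1) * 2 by ring, pow_mul]; exact N.pow_mem hs 2)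
  push_cast at k1 k2
  have : 4 * l ^ 2 * (α / β) = 0 := by linear_combination 2 * k1 - k2
  exact mul_ne_zero (mul_ne_zero (by norm_num) (pow_ne_zero _ hl0)) hθ this

end Diag

end Vale.Agent.P022D.Good
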