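import Vale.Agent.P022D.Pur.Abs

/-!
P022D, block Good: the image of a non zero approximable map grows linearly in the filtration, so
it is not supported on a set of density zero.
-/

set_option linter.all false

namespace Vale.Agent.P022D.Good

open Filter Topology Finset
open scoped Classical

/-! ### primes in a residue class -/

open ArithmeticFunction ArithmeticFunction.vonMangoldt in
theorem not_summable_class {q : ℕ} [NeZero q] {a : ZMod q} (ha : IsUnit a) :
    ¬ Summable fun n : ℕ => if n.Prime ∧ (n : ZMod q) = a then (1 : ℝ) / n else 0 := by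
  intro hs
  obtain ⟨C, hC⟩ := LSeries_residueClass_lower_bound ha
  have hb := hs.add (summable_residueClass_non_primes_div a)
  have h1 : Tendsto (fun x : ℝ => x - 1) (𝓝[>] 1) (𝓝 0) := by
    have : Tendsto (fun s : ℝ => s - 1) (𝓝 1) (𝓝 (1 - 1)) :=
      (continuous_id.sub continuous_const).tendsto _
    rw [sub_self] at this
    exact this.mono_left nhdsWithin_le_nhds
  have hmem : ∀ᶠ x : ℝ in 𝓝[>] 1, x ∈ Set.Ioc (1 : ℝ) 2 := Ioc_mem_nhdsGT one_lt_two
  have hlim : Tendsto (fun x : ℝ => ∑' n : ℕ, (x - 1) * (residueClass a n / (n : ℝ) ^ x))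
      (𝓝[>] 1) (𝓝 (∑' _ : ℕ, (0 : ℝ))) := by
    refine tendsto_tsum_of_dominated_convergence hb (fun n => ?_) ?_
    · refine squeeze_zero' (g := fun x : ℝ => (x - 1) * residueClass a n) ?_ ?_ ?_
      · filter_upwards [hmem] with x hx
        have := residueClass_nonneg a n
        have := hx.1
        have : 0 ≤ x - 1 := by linarith
        positivity
      · filter_upwards [hmem] with x hx
        refine mul_le_mul_of_nonneg_left ?_ (by linarith [hx.1])
        rcases Nat.eq_zero_or_pos n with rfl | hn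
        · simp
        · exact div_le_self (residueClass_nonneg a n)
            (Real.one_le_rpow (by exact_mod_cast hn) (by linarith [hx.1]))
      · simpa using h1.mul_const (residueClass a n)
    · filter_upwards [hmem] with x hx n
      have r0 := residueClass_nonneg a n
      have x0 : 0 ≤ x - 1 := by linarith [hx.1]
      rw [Real.norm_of_nonneg (by positivity)]
      rcases Nat.eq_zero_or_pos n with rfl | hn
      · simp
      have n0 : (0 : ℝ) < n := by exact_mod_cast hn
      have n1 : (1 : ℝ) ≤ n := by exact_mod_cast hn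
      have e : (n : ℝ) ^ x = n * (n : ℝ) ^ (x - 1) := by
        rw [Real.rpow_sub_one n0.ne']; field_simp
      have p0 : (0 : ℝ) < (n : ℝ) ^ (x - 1) := Real.rpow_pos_of_pos n0 _
      by_cases hp : n.Prime
      · by_cases hc : (n : ZMod q) = a
        · simp only [hp, hc, and_self, if_true, zero_div, add_zero]
          have r1 : residueClass a n ≤ Real.log n :=
            (residueClass_le a n).trans (vonMangoldt_apply_prime hp).le
          have r2 : (x - 1) * Real.log n ≤ (n : ℝ) ^ (x - 1) := by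
            rw [Real.rpow_def_of_pos n0, mul_comm]
            linarith [Real.add_one_le_exp (Real.log n * (x - 1))]
          rw [e, ← mul_div_assoc, div_le_div_iff₀ (by positivity) n0]
          nlinarith [mul_le_mul_of_nonneg_left r1 x0]
        · have : residueClass a n = 0 := 
            Set.indicator_of_notMem (s := {n : ℕ | (n : ZMod q) = a}) hc _
          simp [hp, hc, this]
      · simp only [hp, false_and, if_false, zero_add]
        have p1 : (1 : ℝ) ≤ (n : ℝ) ^ (x - 1) := Real.one_le_rpow n1 x0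
        rw [e, ← mul_div_assoc, div_le_div_iff₀ (by positivity) n0]
        have x1 : x - 1 ≤ 1 := by linarith [hx.2]
        have : (x - 1) * residueClass a n ≤ residueClass a n * (n : ℝ) ^ (x - 1) := by
          nlinarith
        nlinarith
  rw [tsum_zero] at hlim
  have hlow : Tendsto (fun x : ℝ => (q.totient : ℝ)⁻¹ - (x - 1) * C) (𝓝[>] 1)
      (𝓝 ((q.totient : ℝ)⁻¹ - 0 * C)) := tendsto_const_nhds.sub (h1.mul_const C)
  have hle := le_of_tendsto_of_tendsto hlow hlim (by
    filter_upwards [hmem] with x hx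
    have x0 : 0 < x - 1 := by linarith [hx.1]
    rw [tsum_mul_left]
    have := mul_le_mul_of_nonneg_left (hC hx) x0.le
    rwa [mul_sub, mul_div_cancel₀ _ x0.ne'] at this)
  have : (0 : ℝ) < (q.totient : ℝ)⁻¹ :=
    inv_pos.2 (by exact_mod_cast Nat.totient_pos.2 (NeZero.pos q))
  linarith

/-! ### counting -/

/-- `m` is not exactly divisible by `l` -/
def Off (l m : ℕ) : Prop := ¬ (l ∣ m ∧ ¬ l ^ 2 ∣ m)

theorem off_mod {l L : ℕ} (h : l ^ 2 ∣ L) (m : ℕ) : Off l (m % L) ↔ Off l m := by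
  have h' : l ∣ L := (dvd_pow_self l two_ne_zero).trans h
  rw [Off, Off, Nat.dvd_mod_iff h, Nat.dvd_mod_iff h']

theorem card_one {l : ℕ} (hl : 2 ≤ l) :
    (#{m ∈ range (l ^ 2) | Off l m} : ℝ) ≤ l ^ 2 * Real.exp (- (1 / l) / 2) := by
  have h1 : #{m ∈ range (l ^ 2) | Off l m} ≤ 1 + #{m ∈ range (l ^ 2) | ¬ l ∣ m} := by
    refine (card_le_card (t := insert 0 {m ∈ range (l ^ 2) | ¬ l ∣ m}) fun m hm => ?_).trans
      ((card_insert_le _ _).trans (by omega))
    rw [mem_filter, mem_range] at hm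
    rw [mem_insert, mem_filter, mem_range]
    by_cases h : l ∣ m
    · left
      have : l ^ 2 ∣ m := by by_contra h'; exact hm.2 ⟨h, h'⟩
      exact Nat.eq_zero_of_dvd_of_lt this hm.1
    · exact Or.inr ⟨hm.1, h⟩
  have h2 : l ≤ #{m ∈ range (l ^ 2) | l ∣ m} := by
    have : #(range l) ≤ #{m ∈ range (l ^ 2) | l ∣ m} := by
      refine card_le_card_of_injOn (fun j => l * j) (fun j hj => ?_) (fun j _ j' _ e => ?_)
      · simp only [coe_filter, mem_range, Set.mem_setOf_eq, coe_range, Set.mem_Iio] at hj ⊢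
        exact ⟨by rw [sq]; exact Nat.mul_lt_mul_of_pos_left hj (by omega), dvd_mul_right _ _⟩
      · exact Nat.eq_of_mul_eq_mul_left (by omega) e
    rwa [card_range] at this
  have h3 := card_filter_add_card_filter_not (s := range (l ^ 2)) (fun m => l ∣ m)
  rw [card_range] at h3
  have h4 : (#{m ∈ range (l ^ 2) | Off l m} : ℝ) + l ≤ 1 + l ^ 2 := by
    have : #{m ∈ range (l ^ 2) | Off l m} + l ≤ 1 + l ^ 2 := by omega
    exact_mod_cast this
  have l2 : (2 : ℝ) ≤ l := by exact_mod_cast hl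
  have h5 := Real.add_one_le_exp (- (1 / (l : ℝ)) / 2)
  have h6 : (l : ℝ) ^ 2 * (- (1 / l) / 2 + 1) = l ^ 2 - l / 2 := by field_simp; ring
  have h7 := mul_le_mul_of_nonneg_left h5 (by positivity : (0 : ℝ) ≤ (l : ℝ) ^ 2)
  linarith

theorem card_set (S : Finset ℕ) (hS : ∀ l ∈ S, l.Prime) :
    (#{m ∈ range (∏ l ∈ S, l ^ 2) | ∀ l ∈ S, Off l m} : ℝ) ≤
      (∏ l ∈ S, l ^ 2 : ℕ) * Real.exp (- (∑ l ∈ S, (1 : ℝ) / l) / 2) := by
  induction S using Finset.induction_on with
  | empty => simp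
  | insert p S hp ih =>
    have pp := hS p (mem_insert_self _ _)
    have hS' : ∀ l ∈ S, l.Prime := fun l h => hS l (mem_insert_of_mem h)
    have hco : (p ^ 2).Coprime (∏ l ∈ S, l ^ 2) := Nat.Coprime.prod_right fun l hl =>
      Nat.Coprime.pow 2 2 ((Nat.coprime_primes pp (hS' l hl)).2 fun e => hp (e ▸ hl))
    have L0 : 0 < ∏ l ∈ S, l ^ 2 := prod_pos fun l hl => pow_pos (hS' l hl).pos 2
    rw [prod_insert hp, sum_insert hp]
    set L := ∏ l ∈ S, l ^ 2 with hL
    have h1 : #{m ∈ range (p ^ 2 * L) | ∀ l ∈ insert p S, Off l m} ≤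
        #({m ∈ range (p ^ 2) | Off p m} ×ˢ {m ∈ range L | ∀ l ∈ S, Off l m}) := by
      refine card_le_card_of_injOn (fun m => (m % p ^ 2, m % L)) (fun m hm => ?_)
        (fun m hm m' hm' e => ?_)
      · simp only [coe_filter, mem_range, Set.mem_setOf_eq, coe_product, Set.mem_prod] at hm ⊢
        refine ⟨⟨Nat.mod_lt _ (pow_pos pp.pos 2), (off_mod dvd_rfl m).2
          (hm.2 p (mem_insert_self _ _))⟩, Nat.mod_lt _ L0, fun l hl => ?_⟩
        exact (off_mod (dvd_prod_of_mem (fun l => l ^ 2) hl) m).2 (hm.2 l (mem_insert_of_mem hl))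
      · simp only [coe_filter, mem_range, Set.mem_setOf_eq, Prod.mk.injEq] at hm hm' e
        have : m ≡ m' [MOD p ^ 2 * L] := (Nat.modEq_and_modEq_iff_modEq_mul hco).1 ⟨e.1, e.2⟩
        exact Nat.ModEq.eq_of_lt_of_lt this hm.1 hm'.1
    rw [card_product] at h1
    have h2 := mul_le_mul (card_one pp.two_le) (ih hS') (by positivity) (by positivity)
    have h3 : Real.exp (- (1 / (p : ℝ) + ∑ l ∈ S, (1 : ℝ) / l) / 2) =
        Real.exp (- (1 / (p : ℝ)) / 2) * Real.exp (- (∑ l ∈ S, (1 : ℝ) / l) / 2) := by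
      rw [← Real.exp_add]; congr 1; ring
    rw [h3]
    refine (Nat.cast_le.2 h1).trans ?_
    push_cast
    linarith

theorem sparse (P : Set ℕ) (hP : ∀ l ∈ P, l.Prime)
    (hs : ¬ Summable fun n : ℕ => if n ∈ P then (1 : ℝ) / n else 0) {ε : ℝ} (hε : 0 < ε) :
    ∃ C : ℝ, ∀ X : ℕ, (#{m ∈ range X | ∀ l ∈ P, Off l m} : ℝ) ≤ ε * X + C := by
  have ht := (not_summable_iff_tendsto_nat_atTop_of_nonneg
    (fun n => by split_ifs <;> positivity)).1 hs
  obtain ⟨N, hN⟩ := (ht.eventually_ge_atTop (- 2 * Real.log ε)).exists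
  rw [← sum_filter] at hN
  set S := {n ∈ range N | n ∈ P} with hS
  have hS' : ∀ l ∈ S, l.Prime := fun l hl => hP l (mem_filter.1 hl).2
  have L0 : 0 < ∏ l ∈ S, l ^ 2 := prod_pos fun l hl => pow_pos (hS' l hl).pos 2
  have h0 := card_set S hS'
  set L := ∏ l ∈ S, l ^ 2 with hL
  have he : Real.exp (- (∑ l ∈ S, (1 : ℝ) / l) / 2) ≤ ε := by
    rw [← Real.le_log_iff_exp_le hε]; linarith
  refine ⟨ε * L, fun X => ?_⟩
  have h1 : #{m ∈ range X | ∀ l ∈ P, Off l m} ≤
      #(range (X / L + 1) ×ˢ {m ∈ range L | ∀ l ∈ S, Off l m}) := by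
    refine card_le_card_of_injOn (fun m => (m / L, m % L)) (fun m hm => ?_)
      (fun m hm m' hm' e => ?_)
    · simp only [coe_filter, mem_range, Set.mem_setOf_eq, coe_product, Set.mem_prod, coe_range,
        Set.mem_Iio] at hm ⊢
      refine ⟨Nat.lt_succ_of_le (Nat.div_le_div_right hm.1.le), Nat.mod_lt _ L0, fun l hl => ?_⟩
      exact (off_mod (dvd_prod_of_mem (fun l => l ^ 2) hl) m).2 (hm.2 l (mem_filter.1 hl).2)
    · simp only [Prod.mk.injEq] at e
      rw [← Nat.div_add_mod m L, ← Nat.div_add_mod m' L, e.1, e.2]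
  rw [card_product, card_range] at h1
  have h2 : ((X / L : ℕ) : ℝ) * L ≤ X := by exact_mod_cast Nat.div_mul_le_self X L
  have h3 := h0.trans (mul_le_mul_of_nonneg_left he (by positivity))
  refine (Nat.cast_le.2 h1).trans ?_
  push_cast
  have h4 := mul_le_mul_of_nonneg_left h3 (by positivity : (0 : ℝ) ≤ ((X / L : ℕ) : ℝ) + 1)
  nlinarith

/-! ### linear growth -/

open Vale.Agent.P022D.Pur

variable {F : Type*} [Field F] {V V' : Type*} [AddCommGroup V] [Module F V]
  [AddCommGroup V'] [Module F V'] {d : ℕ} {A : FZ F V d} {B : FZ F V' d}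

theorem linear_growth (hd : 0 < d) (hB : B.Strict) {c : ℕ} {τ : V →ₗ[F] V'} (hτ : Appr A B c τ)
    (h0 : τ ≠ 0) (hfin : ∀ n, FiniteDimensional F (LinearMap.range τ ⊓ B.fil n : Submodule F V')) :
    ∃ a : ℕ, 0 < a ∧ ∀ m : ℕ,
      m ≤ Module.finrank F (LinearMap.range τ ⊓ B.fil (a * (m + 1) - 1) : Submodule F V') := by
  obtain ⟨f, hf⟩ : ∃ f, τ f ≠ 0 := by
    by_contra hcon
    push Not at hcon
    exact h0 (LinearMap.ext hcon)
  obtain ⟨w, hw⟩ := A.exh f
  have hi : w + c < 2 ^ (w + c) := Nat.lt_two_pow_self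
  set I := 2 ^ (w + c) with hI
  have hI' : I ≤ d * I := Nat.le_mul_of_pos_left _ hd
  refine ⟨d * I, by positivity, fun m => ?_⟩
  induction m with
  | zero => exact Nat.zero_le _
  | succ m ih =>
    have := hfin (d * I * (m + 1 + 1) - 1)
    refine Nat.succ_le_of_lt (ih.trans_lt (Submodule.finrank_lt_finrank_of_lt (lt_of_le_of_ne
      (inf_le_inf_left _ (B.mono (Nat.sub_le_sub_right (Nat.mul_le_mul_left _ (by omega)) 1)))
      fun e => ?_)))
    have e1 : d * (I * (m + 1)) = d * I * m + d * I := by ring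
    have e2 : d * I * (m + 1 + 1) = d * I * m + d * I + d * I := by ring
    have e3 : d * I * (m + 1) = d * I * m + d * I := by ring
    have u1 : τ ((A.z ^ (I * (m + 1))) f) ∈ LinearMap.range τ ⊓ B.fil (d * I * (m + 1 + 1) - 1) :=
      ⟨LinearMap.mem_range_self _ _, B.mono (by omega) (hτ.1 _ _ (A.pow_mem _ _ hw))⟩
    rw [← e] at u1
    have u2 := B.mono (show _ ≤ d * I * (m + 1) - 1 by rw [← hI]; omega)
      (hτ.2 (w + c) (m + 1) w f hw)
    have u3 := sub_mem u1.2 u2
    rw [sub_sub_cancel] at u3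
    exact hf (hB (I * (m + 1)) _ (by positivity) (by rwa [← mul_assoc]))

/-- **An approximable map whose image is killed by the coefficients exactly divisible by the
primes of a large set is zero.** -/
theorem eq_zero_of_sparse (hd : 0 < d) (hB : B.Strict) {c : ℕ} {τ : V →ₗ[F] V'}
    (hτ : Appr A B c τ) {ι : Type*} [Finite ι] (a : ι → ℕ → V' →ₗ[F] F) (C : ℕ)
    (hst : ∀ n, ∀ h ∈ B.fil n, (∀ g, ∀ m < C * (n + 1), a g m h = 0) → h = 0)
    (P : Set ℕ) (hP : ∀ l ∈ P, l.Prime)
    (hs : ¬ Summable fun n : ℕ => if n ∈ P then (1 : ℝ) / n else 0)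
    (hk : ∀ f, ∀ l ∈ P, ∀ g m, l ∣ m → ¬ l ^ 2 ∣ m → a g m (τ f) = 0) : τ = 0 := by
  by_contra h0
  have := Fintype.ofFinite ι
  have key : ∀ n, FiniteDimensional F (LinearMap.range τ ⊓ B.fil n : Submodule F V') ∧
      Module.finrank F (LinearMap.range τ ⊓ B.fil n : Submodule F V') ≤
        Fintype.card ι * #{m ∈ range (C * (n + 1)) | ∀ l ∈ P, Off l m} := fun n => by
    let T := {m ∈ range (C * (n + 1)) | ∀ l ∈ P, Off l m}
    let Φ : (LinearMap.range τ ⊓ B.fil n : Submodule F V') →ₗ[F] (ι × T → F) :=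
      LinearMap.pi fun x => (a x.1 x.2).comp (Submodule.subtype _)
    have hΦ : Function.Injective Φ := by
      rw [← LinearMap.ker_eq_bot, eq_bot_iff]
      rintro ⟨h, ⟨f, rfl⟩, hh⟩ hz
      refine Subtype.ext (hst n _ hh fun g m hm => ?_)
      by_cases hT : ∀ l ∈ P, Off l m
      · exact congrFun hz (g, ⟨m, mem_filter.2 ⟨mem_range.2 hm, hT⟩⟩)
      · push Not at hT
        obtain ⟨l, hl, ho⟩ := hT
        have ho' := not_not.1 ho
        exact hk f l hl g m ho'.1 ho'.2
    refine ⟨FiniteDimensional.of_injective Φ hΦ, ?_⟩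
    have := LinearMap.finrank_le_finrank_of_injective hΦ
    rwa [Module.finrank_fintype_fun_eq_card, Fintype.card_prod, Fintype.card_coe] at this
  obtain ⟨b, hb, hg⟩ := linear_growth hd hB hτ h0 fun n => (key n).1
  set K : ℝ := Fintype.card ι * (C * b) + 1 with hK
  have K0 : 0 < K := by positivity
  obtain ⟨E, hE⟩ := sparse P hP hs (ε := 1 / (2 * K)) (by positivity)
  obtain ⟨m, hm⟩ := exists_nat_gt (2 * (Fintype.card ι * E) + 1)
  have h1 := (hg m).trans (key _).2
  rw [Nat.sub_add_cancel (Nat.mul_pos hb (Nat.succ_pos m))] at h1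
  have h2 := mul_le_mul_of_nonneg_left (hE (C * (b * (m + 1))))
    (by positivity : (0 : ℝ) ≤ Fintype.card ι)
  have h3 : (m : ℝ) ≤ Fintype.card ι * (1 / (2 * K) * (C * (b * (m + 1)) : ℕ) + E) := by
    refine le_trans ?_ h2
    exact_mod_cast h1
  have h4 : (Fintype.card ι : ℝ) * (1 / (2 * K) * (C * (b * (m + 1)) : ℕ)) ≤ (m + 1) / 2 := by
    have : (Fintype.card ι : ℝ) * (1 / (2 * K) * (C * (b * (m + 1)) : ℕ)) =
        (K - 1) / K * ((m + 1) / 2) := by
      push_cast
      rw [hK]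
      field_simp
      ring
    rw [this]
    refine mul_le_of_le_one_left (by positivity) ?_
    rw [div_le_one K0]; linarith
  rw [mul_add] at h3
  linarith

end Vale.Agent.P022D.Good
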